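import Vale.Agent.Lib.P321.Final

/-!
# P321: worst-case trace reconstruction needs at least `c n^(3/2)` traces (no logarithmic loss)
-/

/-- For every deletion probability `q` in `(0,1)` there are `c > 0` and `n₀` such that for all
`n ≥ n₀`, every (randomized) estimator that recovers every string of length `n` with probability
at least `2/3` from `m` independent traces uses `m ≥ c * n^(3/2)` traces. -/
theorem Vale.Agent.Results.P321.TraceLowerBound.result (q : ℝ) (h0 : 0 < q) (h1 : q < 1) :
    ∃ c : ℝ, 0 < c ∧ ∃ n₀ : ℕ, ∀ n ≥ n₀, ∀ m : ℕ,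
      ∀ est : (Fin m → List Bool) → PMF (List Bool),
        (∀ x : List Bool, x.length = n → 2 / 3 ≤ Vale.Agent.Lib.P321.successProb q m est x) →
          c * (n : ℝ) ^ (3 / 2 : ℝ) ≤ m :=
  Vale.Agent.Lib.P321.main h0 h1
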